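import Vale.Agent.P218PR.Step

/-! Propagation of the density bound along the model. -/

open MeasureTheory Set Filter Topology Metric
open scoped ENNReal NNReal RealInnerProductSpace

namespace Vale.Agent.P218PR

open Vale.Agent.P214 (proj divAlong)
open Vale.Agent.P218 Vale.Agent.P218.H313 Vale.Agent.P218DY

set_option linter.unusedSectionVars false
set_option linter.unusedVariables false

variable {E : Type*} [NormedAddCommGroup E] [InnerProductSpace ℝ E] [FiniteDimensional ℝ E]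
  [MeasurableSpace E] [BorelSpace E]
variable {m : ℕ} {μ : Measure E} {T : E → Submodule ℝ E} {H : E → E} {W : E → ℝ} {c K CR : ℝ}

/-- a tangential step towards the origin -/
lemma exists_step (hW : TubeG W c K) {x : E} (hx : W x = 0) (hxK : 8 * K ≤ ‖x‖) {η : ℝ}
    (hη : 0 < η) (hηc : η < c) :
    ∃ x' e : E, W x' = 0 ∧ ‖x'‖ ≤ ‖x‖ - η / 2 ∧ ‖e‖ = 1 ∧ ⟪grad W x, e⟫ = 0 ∧
      ‖x - x' - η • e‖ ≤ K * η ^ 2 := by
  have hK1 := hW.K1
  have hK := hW.K0
  have hc4 := hW.c_le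
  have hcK := hW.cK
  have hηK : K * η ≤ 1 / 4 := by nlinarith
  have hg1 := hW.eik x (hW.zero_mem hx)
  have ha := hW.bx x
  obtain ⟨g, hg⟩ : ∃ g, g = grad W x := ⟨_, rfl⟩
  rw [← hg] at hg1 ha
  obtain ⟨u, hu⟩ : ∃ u, u = x - ⟪x, g⟫ • g := ⟨_, rfl⟩
  have hu1 : ‖x‖ - K ≤ ‖u‖ := by
    have h1 := norm_sub_norm_le x (⟪x, g⟫ • g)
    rw [norm_smul, hg1, mul_one, Real.norm_eq_abs, ← hu] at h1
    linarith
  have hu0 : 0 < ‖u‖ := by linarith
  have hgu : ⟪g, u⟫ = 0 := by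
    rw [hu, inner_sub_right, real_inner_smul_right, real_inner_self_eq_norm_sq, hg1,
      real_inner_comm]
    ring
  have hxu : ⟪x, u⟫ = ‖u‖ ^ 2 := by
    have e : x = u + ⟪x, g⟫ • g := by rw [hu]; abel
    conv_lhs => rw [e]
    rw [inner_add_left, real_inner_smul_left, hgu, real_inner_self_eq_norm_sq]
    ring
  obtain ⟨e, he⟩ : ∃ e, e = ‖u‖⁻¹ • u := ⟨_, rfl⟩
  have he1 : ‖e‖ = 1 := by rw [he, norm_smul, norm_inv, norm_norm, inv_mul_cancel₀ hu0.ne']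
  have hge : ⟪g, e⟫ = 0 := by rw [he, real_inner_smul_right, hgu, mul_zero]
  have hxe : ⟪x, e⟫ = ‖u‖ := by rw [he, real_inner_smul_right, hxu]; field_simp
  have hp : |W (x - η • e)| ≤ K * η ^ 2 := by
    have h1 := hW.taylor x (x - η • e)
    rw [hx, sub_sub_cancel_left, inner_neg_right, real_inner_smul_right, ← hg, hge, norm_neg,
      norm_smul, he1, Real.norm_of_nonneg hη.le] at h1
    simpa using h1
  have hq : K * η ^ 2 ≤ η / 4 := by nlinarith
  have hpc : |W (x - η • e)| < c := by linarith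
  have hpn : ‖x - η • e‖ ≤ ‖x‖ - 3 / 4 * η := by
    refine le_of_sq_le_sq ?_ (by linarith)
    rw [norm_sub_sq_real, real_inner_smul_right, hxe, norm_smul, he1, Real.norm_of_nonneg hη.le]
    nlinarith
  refine ⟨ft W (x - η • e), e, hW.ft_zero hpc, ?_, he1, by rw [← hg]; exact hge, ?_⟩
  · have := hW.norm_ft_le (x - η • e)
    linarith
  · have h1 := hW.norm_ft_sub (x - η • e)
    rw [norm_sub_rev] at h1
    have e1 : x - ft W (x - η • e) - η • e = x - η • e - ft W (x - η • e) := by abel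
    rw [e1]
    exact h1.trans hp

/-- the chain of steps -/
lemma chain_le (hE : Module.finrank ℝ E = m + 1) (hW : TubeG W c K) (hS : Slice m μ T H)
    (hR : Ratio m μ CR) {R R₀ t Θ d : ℝ} (ht : 0 < t) (hc : t < c) (htR : t * (R + 2) ≤ 2)
    (hR₀ : 8 * K ≤ R₀) (hd0 : 0 ≤ d)
    (hd : 31 * K ^ 2 * t * CR + 25 * K / t ^ 3 * en μ T H W (R + 3) / t ^ m ≤ d)
    (hΘ : ∀ x, W x = 0 → ‖x‖ ≤ R₀ → th m μ x t ≤ Θ) (j : ℕ) :
    ∀ x, W x = 0 → ‖x‖ ≤ R + 1 → ‖x‖ ≤ R₀ + j * (t ^ 3 / 2) → th m μ x t ≤ Θ + j * (t ^ 3 * d) := by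
  have hc4 := hW.c_le
  have hK := hW.K0
  have ht1 : t ≤ 1 := by linarith
  have t31 : t ^ 3 ≤ t := by simpa using pow_le_pow_of_le_one ht.le ht1 (by norm_num : 1 ≤ 3)
  have p3 : 0 < t ^ 3 := by positivity
  have hK3 : K * t ^ 3 ≤ 1 := by
    have := hW.cK
    have h1 : K * t ^ 3 ≤ K * c := mul_le_mul_of_nonneg_left (by linarith) hK
    linarith
  induction j with
  | zero =>
    intro x hx _ h2
    simpa using hΘ x hx (by simpa using h2)
  | succ j ih =>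
    intro x hx h1 h2
    push_cast at h2 ⊢
    rcases le_total ‖x‖ R₀ with h | h
    · have : 0 ≤ ((j : ℝ) + 1) * (t ^ 3 * d) := by positivity
      linarith [hΘ x hx h]
    · obtain ⟨x', e, hx', hn, he1, he, hz⟩ := exists_step hW hx (hR₀.trans h) p3 (by linarith)
      have k1 := step_le hE hW hS hR hx ht hc h1 htR he1 he hK3 hz
      have k2 := ih x' hx' (by linarith) (by linarith)
      have k3 := mul_le_mul_of_nonneg_left hd p3.le
      linarith

lemma real_fin {K o ε R CR en : ℝ} {m : ℕ} (hK : 1 ≤ K) (ho : 0 < o) (hε : 0 < ε) (hR : 0 ≤ R)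
    (hCR : 0 ≤ CR) (h1 : ε * (93 * K ^ 2 * CR + 1) ≤ o / 16)
    (hen : en ≤ o * ε ^ (m + 3) / (1200 * K) / (R + 1) ^ (m + 4)) :
    31 * K ^ 2 * (ε / (R + 1)) * CR + 25 * K / (ε / (R + 1)) ^ 3 * en / (ε / (R + 1)) ^ m
      ≤ o / (24 * (R + 1)) := by
  have hR1 : 0 < R + 1 := by linarith
  have hK0 : 0 < K := by linarith
  have a1 : 31 * K ^ 2 * (ε / (R + 1)) * CR ≤ o / (48 * (R + 1)) := by
    rw [le_div_iff₀ (by positivity)]
    have e : 31 * K ^ 2 * (ε / (R + 1)) * CR * (48 * (R + 1)) = 16 * (ε * (93 * K ^ 2 * CR)) := by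
      field_simp; ring
    rw [e]
    nlinarith
  have a2 : 25 * K / (ε / (R + 1)) ^ 3 * en / (ε / (R + 1)) ^ m
      ≤ 25 * K / (ε / (R + 1)) ^ 3 * (o * ε ^ (m + 3) / (1200 * K) / (R + 1) ^ (m + 4))
        / (ε / (R + 1)) ^ m := by gcongr
  have a3 : 25 * K / (ε / (R + 1)) ^ 3 * (o * ε ^ (m + 3) / (1200 * K) / (R + 1) ^ (m + 4))
        / (ε / (R + 1)) ^ m = o / (48 * (R + 1)) := by
    rw [div_pow, div_pow]
    field_simp
    ring
  have a4 : o / (24 * (R + 1)) = o / (48 * (R + 1)) + o / (48 * (R + 1)) := by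
    field_simp; ring
  linarith

/-- **propagation of the density bound** -/
theorem propagate (hm : 0 < m) (hE : Module.finrank ℝ E = m + 1) (c K CR : ℝ) :
    ∃ R₀ > 0, ∃ r₂ > 0, ∀ r₁, 0 < r₁ → r₁ ≤ r₂ → ∀ ε₁, 0 < ε₁ → ε₁ ≤ r₁ →
      ∃ (c₀ : ℝ) (n : ℕ), 0 < c₀ ∧ ∀ R, R₀ ≤ R → ∀ (W : E → ℝ) (μ : Measure E)
        (T : E → Submodule ℝ E) (H : E → E), TubeG W c K → Slice m μ T H → Ratio m μ CR →
        (∀ x, W x = 0 → ‖x‖ ≤ R₀ → th m μ x r₁ ≤ 5 / 4 * om m) →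
        en μ T H W (R + 3) ≤ c₀ / (R + 1) ^ n →
        ∀ x, W x = 0 → ‖x‖ ≤ R + 1 → th m μ x (ε₁ / (R + 1)) ≤ 3 / 2 * om m := by
  by_cases hyp : 0 < c ∧ 1 ≤ K ∧ 0 ≤ CR
  swap
  · refine ⟨1, one_pos, 1, one_pos, fun r₁ _ _ ε₁ _ _ => ⟨1, 0, one_pos, ?_⟩⟩
    intro R _ W μ T H hW _ hR
    refine absurd ⟨hW.cpos, hW.K1, ?_⟩ hyp
    have h1 := hR 0 1 one_pos le_rfl
    have h2 : 0 ≤ μ.real (closedBall (0 : E) 1) := measureReal_nonneg
    simpa using h2.trans h1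
  obtain ⟨hc, hK1, hCR⟩ := hyp
  have ho := om_pos m
  have hK : 0 < K := by linarith
  obtain ⟨lam, hlam⟩ : ∃ lam, lam = (K + 8 * K + 3) / 2 * CR + (8 * K + 3) / 2 := ⟨_, rfl⟩
  have hlam0 : 0 < lam := by rw [hlam]; positivity
  refine ⟨8 * K, by positivity,
    min (c / 2) (min (om m / (8 * lam)) (om m / (16 * (93 * K ^ 2 * CR + 1)))), by positivity,
    fun r₁ hr₁ hr₂ ε hε hεr => ⟨min (ε ^ m) (om m * ε ^ (m + 3) / (1200 * K)), m + 4,
      by positivity, ?_⟩⟩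
  intro R hR W μ T H hW hS hRat hcore hen x hx hxR
  have b1 : r₁ ≤ c / 2 := hr₂.trans (min_le_left _ _)
  have b2 : r₁ ≤ om m / (8 * lam) := hr₂.trans ((min_le_right _ _).trans (min_le_left _ _))
  have b3 : r₁ ≤ om m / (16 * (93 * K ^ 2 * CR + 1)) :=
    hr₂.trans ((min_le_right _ _).trans (min_le_right _ _))
  have hc4 := hW.c_le
  have hR0 : 0 ≤ R := by linarith
  have hR1 : 1 ≤ R + 1 := by linarith
  have ht : 0 < ε / (R + 1) := by positivity
  have htε : ε / (R + 1) ≤ ε := div_le_self hε.le hR1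
  have hen1 : en μ T H W (R + 3) ≤ (ε / (R + 1)) ^ m := by
    refine hen.trans ?_
    rw [div_pow]
    have : (R + 1) ^ m ≤ (R + 1) ^ (m + 4) := pow_le_pow_right₀ hR1 (by omega)
    gcongr
    exact min_le_left _ _
  have hen2 : en μ T H W (R + 3) ≤ om m * ε ^ (m + 3) / (1200 * K) / (R + 1) ^ (m + 4) := by
    refine hen.trans ?_
    gcongr
    exact min_le_right _ _
  have hΘ : ∀ x, W x = 0 → ‖x‖ ≤ 8 * K → th m μ x (ε / (R + 1)) ≤ 11 / 8 * om m := by
    intro x hx hx8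
    have k1 := core_le hE hW hS hRat hCR hx hx8 ht (htε.trans hεr) (by linarith)
      (R := R + 3) (by linarith) hen1
    rw [← hlam] at k1
    have k2 := hcore x hx hx8
    have k3 : lam * r₁ ≤ om m / 8 := by
      rw [le_div_iff₀ (by positivity)] at b2
      linarith
    linarith
  have hd := real_fin (m := m) hK1 ho hε hR0 hCR (by
    have h1 : ε ≤ om m / (16 * (93 * K ^ 2 * CR + 1)) := hεr.trans b3
    rw [le_div_iff₀ (by positivity)] at h1
    linarith) hen2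
  have htR : ε / (R + 1) * (R + 2) ≤ 2 := by
    rw [div_mul_eq_mul_div, div_le_iff₀ (by linarith)]
    nlinarith
  generalize ε / (R + 1) = t at ht htε hΘ hd htR ⊢
  have ht1 : t ≤ 1 := by linarith
  have p3 : 0 < t ^ 3 := by positivity
  have t3 : t ^ 3 ≤ 1 := pow_le_one₀ ht.le ht1
  have j1 := Nat.le_ceil (2 * (R + 1) / t ^ 3)
  have j2 := (Nat.ceil_lt_add_one (a := 2 * (R + 1) / t ^ 3) (by positivity)).le
  generalize ⌈2 * (R + 1) / t ^ 3⌉₊ = j at j1 j2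
  rw [div_le_iff₀ p3] at j1
  have j3 : j * t ^ 3 ≤ 3 * (R + 1) := by
    have h1 := mul_le_mul_of_nonneg_right j2 p3.le
    rw [add_mul, div_mul_cancel₀ _ p3.ne'] at h1
    linarith
  have k := chain_le hE hW hS hRat ht (by linarith) htR le_rfl (by positivity) hd hΘ j x hx hxR
    (by linarith)
  have k2 : j * (t ^ 3 * (om m / (24 * (R + 1)))) ≤ om m / 8 := by
    calc j * (t ^ 3 * (om m / (24 * (R + 1)))) = j * t ^ 3 * (om m / (24 * (R + 1))) := by ring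
      _ ≤ 3 * (R + 1) * (om m / (24 * (R + 1))) := by gcongr
      _ = om m / 8 := by field_simp; ring
  linarith

end Vale.Agent.P218PR
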