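import Vale.Agent.P218DY.Tube2
import Vale.Agent.P218.H313.C2

/-! Propagation of the density bound: integrals over small balls, monotonicity on a range of
scales. -/

open MeasureTheory Set Filter Topology Metric
open scoped ENNReal NNReal RealInnerProductSpace

namespace Vale.Agent.P218PR

open Vale.Agent.P214 (proj divAlong)
open Vale.Agent.P218 Vale.Agent.P218.H313 Vale.Agent.P218DY

set_option linter.unusedSectionVars false
set_option linter.unusedVariables false

variable {E : Type*} [NormedAddCommGroup E] [InnerProductSpace ℝ E] [FiniteDimensional ℝ E]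
  [MeasurableSpace E] [BorelSpace E]
variable {m : ℕ} {μ : Measure E} {T : E → Submodule ℝ E} {H : E → E} {W : E → ℝ} {c K CR : ℝ}

/-- the energy density -/
noncomputable def sd (T : E → Submodule ℝ E) (H : E → E) (W : E → ℝ) (y : E) : ℝ :=
  W y ^ 2 + tau T W y ^ 2 + ‖vel T H y‖ ^ 2

lemma sd_nonneg (y : E) : 0 ≤ sd T H W y := by unfold sd; positivity

lemma norm_vel_le (y : E) : ‖vel T H y‖ ≤ ‖H y‖ + ‖y‖ := by
  unfold vel
  refine (norm_add_le _ _).trans ?_
  rw [norm_smul, Real.norm_of_nonneg (by norm_num : (0 : ℝ) ≤ 1 / 2)]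
  have := norm_sub_proj_le (T y) y
  have := norm_nonneg y
  linarith

lemma int_sd (hW : TubeG W c K) (hS : Slice m μ T H) (x : E) (t : ℝ) :
    IntegrableOn (sd T H W) (closedBall x t) μ := by
  have : ProperSpace E := FiniteDimensional.proper_real E
  have := hS.mc.fin
  have hK := isCompact_closedBall x t
  have h1 : IntegrableOn (fun y => W y ^ 2 + 1 + 2 * ‖y‖ ^ 2) (closedBall x t) μ :=
    (((hW.cont.pow 2).add continuous_const).add
      (continuous_const.mul (continuous_norm.pow 2))).continuousOn.integrableOn_compact hK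
  have h2 := (hS.mc.locL2 _ hK).const_mul 2
  have hm : AEStronglyMeasurable (sd T H W) μ :=
    (((hW.cont.pow 2).aestronglyMeasurable).add ((hW.tau_meas hS).pow 2)).add
      (hS.vel_meas.norm.pow 2)
  refine Integrable.mono' (h1.add h2) hm.restrict (Eventually.of_forall fun y => ?_)
  rw [Real.norm_of_nonneg (sd_nonneg y)]
  have a1 := hW.tau_le_one T y
  have a2 := TubeG.tau_nonneg T W y
  have a3 := norm_vel_le (T := T) (H := H) y
  have a4 := norm_nonneg (vel T H y)
  have a5 : ‖vel T H y‖ ^ 2 ≤ (‖H y‖ + ‖y‖) ^ 2 := by gcongr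
  unfold sd
  simp only [Pi.add_apply]
  nlinarith [sq_nonneg (‖H y‖ - ‖y‖)]

lemma sd_ball_le (hW : TubeG W c K) (hS : Slice m μ T H) {x : E} {t R : ℝ} (h : ‖x‖ + t ≤ R) :
    ∫ y in closedBall x t, sd T H W y ∂μ ≤ en μ T H W R := by
  refine setIntegral_mono_set (int_sd hW hS 0 R) (Eventually.of_forall fun y => sd_nonneg y)
    (LE.le.eventuallyLE ?_)
  intro y hy
  rw [mem_closedBall, dist_eq_norm] at hy
  rw [mem_closedBall, dist_zero_right]
  have := norm_add_le (y - x) x
  rw [sub_add_cancel] at this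
  linarith

/-- the basic bound for integrals over a small ball -/
lemma ball_le (hW : TubeG W c K) (hS : Slice m μ T H) (hR : Ratio m μ CR) {x : E} {t R : ℝ}
    (ht : 0 < t) (ht1 : t ≤ 1) (h : ‖x‖ + t ≤ R) {f : E → ℝ}
    (hf : IntegrableOn f (closedBall x t) μ) {a b : ℝ} (ha : 0 ≤ a) (hb : 0 ≤ b)
    (hle : ∀ᵐ y ∂μ, y ∈ closedBall x t → f y ≤ a + b * sd T H W y) :
    ∫ y in closedBall x t, f y ∂μ ≤ a * (CR * t ^ m) + b * en μ T H W R := by
  have : ProperSpace E := FiniteDimensional.proper_real E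
  have := hS.mc.fin
  have hK := isCompact_closedBall x t
  have h1 : IntegrableOn (fun _ : E => a) (closedBall x t) μ :=
    continuous_const.continuousOn.integrableOn_compact hK
  have h2 := (int_sd hW hS x t).const_mul b
  have h3 : ∫ y in closedBall x t, f y ∂μ
      ≤ ∫ y in closedBall x t, (a + b * sd T H W y) ∂μ :=
    integral_mono_ae hf (h1.add h2) ((ae_restrict_iff' measurableSet_closedBall).2 hle)
  rw [integral_add h1 h2, integral_const_mul, setIntegral_const, smul_eq_mul] at h3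
  have h4 := hR x t ht ht1
  have h5 := sd_ball_le hW hS h
  have h6 : μ.real (closedBall x t) * a ≤ CR * t ^ m * a := by gcongr
  have h7 : b * ∫ y in closedBall x t, sd T H W y ∂μ ≤ b * en μ T H W R := by gcongr
  linarith

/-- weighted monotonicity on a range of scales -/
theorem JJ_mono' (hS : Slice m μ T H) {h : E → ℝ} (hh : ContDiff ℝ 1 h) (h0 : ∀ y, 0 ≤ h y)
    {x : E} {lam r₀ r : ℝ} (hr₀ : 0 < r₀) (hr : r₀ ≤ r)
    (hA : ∀ t, r₀ ≤ t → t ≤ r → ∫ y in closedBall x t, err T H h y ∂μ ≤ lam * t ^ m) :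
    JJ m μ h x r₀ ≤ JJ m μ h x r + lam * (r - r₀) := by
  have hfin := hS.mc.fin
  set G : ℝ → ℝ := fun t => JJ m μ h x t + lam * t with hG
  have hder : ∀ t, 0 < t → HasDerivAt G (t⁻¹ * (∫ y, (-(m * psi (‖y - x‖ ^ 2 / t ^ 2))
        - 2 * (‖y - x‖ ^ 2 / t ^ 2) * psi' (‖y - x‖ ^ 2 / t ^ 2)) * h y ∂μ) / t ^ m
        + lam * 1) t := by
    intro t ht
    exact (hasDerivAt_JJ hh.continuous x ht).add ((hasDerivAt_id t).const_mul lam)
  have hmono : MonotoneOn G (Icc r₀ r) := by
    refine monotoneOn_of_deriv_nonneg (convex_Icc r₀ r) ?_ ?_ ?_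
    · intro t ht
      exact (hder t (lt_of_lt_of_le hr₀ ht.1)).continuousAt.continuousWithinAt
    · intro t ht
      rw [interior_Icc] at ht
      exact (hder t (lt_trans hr₀ ht.1)).differentiableAt.differentiableWithinAt
    · intro t ht
      rw [interior_Icc] at ht
      have ht0 : 0 < t := lt_trans hr₀ ht.1
      rw [(hder t ht0).deriv]
      have k1 := key_ineq hS hh h0 x ht0
      have k2 := hA t ht.1.le ht.2.le
      have hp : 0 < t ^ m := by positivity
      have k3 : -(t * (lam * t ^ m)) ≤ ∫ y, (-(m * psi (‖y - x‖ ^ 2 / t ^ 2))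
        - 2 * (‖y - x‖ ^ 2 / t ^ 2) * psi' (‖y - x‖ ^ 2 / t ^ 2)) * h y ∂μ := by
        refine le_trans ?_ k1
        have := mul_le_mul_of_nonneg_left k2 ht0.le
        linarith
      have k4 : -lam ≤ t⁻¹ * (∫ y, (-(m * psi (‖y - x‖ ^ 2 / t ^ 2))
        - 2 * (‖y - x‖ ^ 2 / t ^ 2) * psi' (‖y - x‖ ^ 2 / t ^ 2)) * h y ∂μ) / t ^ m := by
        rw [le_div_iff₀ hp, ← div_eq_inv_mul, le_div_iff₀ ht0]
        linarith
      linarith
  have := hmono (left_mem_Icc.2 hr) (right_mem_Icc.2 hr) hr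
  simp only [hG] at this
  linarith

lemma th_eq_JJ (x : E) (r : ℝ) : th m μ x r = JJ m μ (fun _ => 1) x r := by
  unfold th JJ
  simp

lemma err_one (y : E) : err T H (fun _ => 1) y = ‖H y‖ := by
  unfold err
  have : grad (fun _ : E => (1 : ℝ)) y = 0 := grad_unique fun v => by simp
  rw [this]
  simp

lemma mem_tube (hW : TubeG W c K) {x y : E} (hx : W x = 0) {t : ℝ} (ht : t < c)
    (hy : y ∈ closedBall x t) : |W y| < c := by
  have := hW.lip x y
  rw [mem_closedBall, dist_eq_norm] at hy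
  rw [hx, sub_zero] at this
  linarith

lemma norm_le_of_mem {x y : E} {t : ℝ} (hy : y ∈ closedBall x t) : ‖y‖ ≤ ‖x‖ + t := by
  rw [mem_closedBall, dist_eq_norm] at hy
  have := norm_add_le (y - x) x
  rw [sub_add_cancel] at this
  linarith

lemma int_H (hS : Slice m μ T H) (x : E) (t : ℝ) :
    IntegrableOn (fun y => ‖H y‖) (closedBall x t) μ := by
  have : ProperSpace E := FiniteDimensional.proper_real E
  have h := hS.err_integrableOn (h := fun _ => 1) contDiff_const (isCompact_closedBall x t)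
  have e : err T H (fun _ => 1) = fun y => ‖H y‖ := funext err_one
  rwa [e] at h

/-- from the scale `r₁` down to the scale `r₀`, in the core -/
theorem core_le (hE : Module.finrank ℝ E = m + 1) (hW : TubeG W c K) (hS : Slice m μ T H)
    (hR : Ratio m μ CR) (hCR : 0 ≤ CR) {x : E} (hx : W x = 0) {R₀ R r₀ r₁ : ℝ} (hxR : ‖x‖ ≤ R₀)
    (hr₀ : 0 < r₀) (hr : r₀ ≤ r₁) (hc : r₁ < c) (hRR : R₀ + 1 ≤ R)
    (hen : en μ T H W R ≤ r₀ ^ m) :
    th m μ x r₀ ≤ th m μ x r₁ + ((K + R₀ + 3) / 2 * CR + (R₀ + 3) / 2) * r₁ := by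
  have hK := hW.K0
  have hc4 := hW.c_le
  have hR0 : 0 ≤ R₀ := (norm_nonneg x).trans hxR
  have h := JJ_mono' hS (h := fun _ => 1) contDiff_const (fun _ => zero_le_one) (x := x)
    (lam := (K + R₀ + 3) / 2 * CR + (R₀ + 3) / 2) hr₀ hr ?_
  · rw [th_eq_JJ, th_eq_JJ]
    have : 0 ≤ ((K + R₀ + 3) / 2 * CR + (R₀ + 3) / 2) * r₀ := by positivity
    linarith
  intro t ht1 ht2
  have ht0 : 0 < t := hr₀.trans_le ht1
  have e : err T H (fun _ => 1) = fun y => ‖H y‖ := funext err_one
  rw [e]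
  have h1 := ball_le hW hS hR ht0 (by linarith) (R := R) (by linarith) (int_H hS x t)
    (a := (K + R₀ + 3) / 2) (b := (R₀ + 3) / 2) (by positivity) (by positivity) ?_
  · have h2 : r₀ ^ m ≤ t ^ m := by gcongr
    have h3 : (R₀ + 3) / 2 * en μ T H W R ≤ (R₀ + 3) / 2 * t ^ m := by
      gcongr; exact hen.trans h2
    linarith
  filter_upwards [hS.mc.dim] with y hdim hy
  have a1 := hW.norm_H_le_tube hE H hdim (mem_tube hW hx (by linarith) hy)
  have a2 := norm_le_of_mem hy
  have a3 := TubeG.tau_nonneg T W y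
  have a4 := norm_nonneg (vel T H y)
  have a5 : ‖vel T H y‖ ≤ 1 + sd T H W y := by
    unfold sd; nlinarith [sq_nonneg (‖vel T H y‖ - 1), sq_nonneg (W y), sq_nonneg (tau T W y)]
  have a6 : tau T W y ≤ 1 + sd T H W y := by
    unfold sd; nlinarith [sq_nonneg (tau T W y - 1), sq_nonneg (W y), sq_nonneg ‖vel T H y‖]
  have a7 : ‖y‖ / 2 * tau T W y ≤ (R₀ + 1) / 2 * (1 + sd T H W y) := by
    have : ‖y‖ / 2 ≤ (R₀ + 1) / 2 := by linarith
    have := norm_nonneg y
    gcongr
  linarith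

end Vale.Agent.P218PR
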