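import Vale.Agent.P218PR.Base

/-! Propagation of the density bound: one tangential step. -/

open MeasureTheory Set Filter Topology Metric
open scoped ENNReal NNReal RealInnerProductSpace

namespace Vale.Agent.P218PR

open Vale.Agent.P214 (proj divAlong)
open Vale.Agent.P218 Vale.Agent.P218.H313 Vale.Agent.P218DY

set_option linter.unusedSectionVars false
set_option linter.unusedVariables false

variable {E : Type*} [NormedAddCommGroup E] [InnerProductSpace ℝ E] [FiniteDimensional ℝ E]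
  [MeasurableSpace E] [BorelSpace E]
variable {m : ℕ} {μ : Measure E} {T : E → Submodule ℝ E} {H : E → E} {W : E → ℝ} {c K CR : ℝ}

/-- semiconvexity of the kernel -/
lemma ker_semiconvex (z g : E) :
    H313.ker z ≤ H313.ker (z + g) + 4 * max (1 - ‖z‖ ^ 2) 0 * ⟪z, g⟫ + 2 * ‖g‖ ^ 2 := by
  unfold H313.ker
  have e : ‖z + g‖ ^ 2 = ‖z‖ ^ 2 + 2 * ⟪z, g⟫ + ‖g‖ ^ 2 := norm_add_sq_real z g
  have h1 := le_max_left (1 - ‖z + g‖ ^ 2) 0
  set q := max (1 - ‖z + g‖ ^ 2) 0 with hq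
  rcases le_total (1 - ‖z‖ ^ 2) 0 with h | h
  · rw [max_eq_right h]
    nlinarith [sq_nonneg q, sq_nonneg ‖g‖]
  · rw [max_eq_left h]
    set p := 1 - ‖z‖ ^ 2 with hp
    have hp1 : p ≤ 1 := by rw [hp]; nlinarith [sq_nonneg ‖z‖]
    have h2 : p - 2 * ⟪z, g⟫ - ‖g‖ ^ 2 ≤ q := by rw [hp]; linarith
    have h3 := mul_le_mul_of_nonneg_left h2 h
    have h4 : p * ‖g‖ ^ 2 ≤ ‖g‖ ^ 2 := mul_le_of_le_one_left (sq_nonneg _) hp1
    nlinarith [sq_nonneg (q - p)]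

lemma real_lin {s w d : ℝ} (hd : 0 < d) (hw : w ^ 2 ≤ s) : w ≤ d + s / d := by
  have : w - d ≤ s / d := by
    rw [le_div_iff₀ hd]; nlinarith [sq_nonneg (w - d), sq_nonneg w]
  linarith

lemma real_aux {K t ρ u v τ σ : ℝ} (hK : 1 ≤ K) (ht : 0 < t) (ht1 : t ≤ 1)
    (hρ : t * ρ ≤ 2) (hv : 0 ≤ v) (hτ : 0 ≤ τ) (hσ0 : 0 ≤ σ)
    (v1 : v ≤ t + σ) (τ1 : τ ≤ t + σ) (u1 : u / t ≤ t + σ) (vτ : v * τ ≤ σ)
    (b4 : ρ * τ ^ 2 / 2 ≤ σ) (b6 : u * τ / t ^ 2 ≤ σ) (b7 : τ ^ 2 / t ≤ σ) :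
    (v + K / 2 + ρ / 2 * τ) * (K * t + τ) + 4 * ((K * t + τ) * (u + K * t ^ 2 + τ * t)) / t ^ 2
      ≤ 19 * K ^ 2 * t + 25 * (K * σ) := by
  have hK0 : 0 ≤ K := by linarith
  have e1 : (v + K / 2 + ρ / 2 * τ) * (K * t + τ)
      = K * (t * v) + K ^ 2 * t / 2 + K * (t * ρ) * τ / 2 + v * τ + K * τ / 2
        + ρ * τ ^ 2 / 2 := by ring
  have e2 : 4 * ((K * t + τ) * (u + K * t ^ 2 + τ * t)) / t ^ 2
      = 4 * (K * (u / t)) + 4 * (K ^ 2 * t) + 8 * (K * τ) + 4 * (u * τ / t ^ 2)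
        + 4 * (τ ^ 2 / t) := by
    field_simp; ring
  have b1 : K * (t * v) ≤ K * (t + σ) :=
    mul_le_mul_of_nonneg_left ((mul_le_of_le_one_left hv ht1).trans v1) hK0
  have b2 : K * (t * ρ) * τ ≤ K * 2 * (t + σ) :=
    mul_le_mul (mul_le_mul_of_nonneg_left hρ hK0) τ1 hτ (by positivity)
  have b3 : K * τ ≤ K * (t + σ) := mul_le_mul_of_nonneg_left τ1 hK0
  have b5 : K * (u / t) ≤ K * (t + σ) := mul_le_mul_of_nonneg_left u1 hK0
  have b8 : K * t ≤ K ^ 2 * t := mul_le_mul_of_nonneg_right (by nlinarith) ht.le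
  have b9 : σ ≤ K * σ := le_mul_of_one_le_left hσ0 hK
  have e4 : K * (t + σ) = K * t + K * σ := by ring
  have e5 : K * 2 * (t + σ) = 2 * (K * t) + 2 * (K * σ) := by ring
  have e6 : 19 * K ^ 2 * t = 19 * (K ^ 2 * t) := by ring
  have e7 : K ^ 2 * t / 2 = 1 / 2 * (K ^ 2 * t) := by ring
  have h0 : 0 ≤ K * σ := by positivity
  have h1 : 0 ≤ K ^ 2 * t := by positivity
  rw [e1, e2, e6, e7]
  rw [e4] at b1 b3 b5
  rw [e5] at b2
  linarith

lemma real_step {K t ρ u v τ s A N B : ℝ} (hK : 1 ≤ K) (ht : 0 < t) (ht1 : t ≤ 1) (hρ0 : 0 ≤ ρ)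
    (hρ : t * ρ ≤ 2) (hu : 0 ≤ u) (hv : 0 ≤ v) (hτ : 0 ≤ τ) (hs : s = u ^ 2 + τ ^ 2 + v ^ 2)
    (hA0 : 0 ≤ A) (hA : A ≤ v + K / 2 + ρ / 2 * τ) (hN0 : 0 ≤ N) (hN : N ≤ K * t + τ)
    (hB0 : 0 ≤ B) (hB : B ≤ u + K * t ^ 2 + τ * t) :
    A * N + 4 * (N * B) / t ^ 2 ≤ 19 * K ^ 2 * t + 25 * K / t ^ 3 * s := by
  have hK0 : 0 ≤ K := by linarith
  have hs0 : 0 ≤ s := by rw [hs]; positivity
  have su : u ^ 2 ≤ s := by rw [hs]; nlinarith [sq_nonneg τ, sq_nonneg v]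
  have sv : v ^ 2 ≤ s := by rw [hs]; nlinarith [sq_nonneg τ, sq_nonneg u]
  have ττ : τ ^ 2 ≤ s := by rw [hs]; nlinarith [sq_nonneg u, sq_nonneg v]
  have vτ : v * τ ≤ s := by rw [hs]; nlinarith [sq_nonneg (v - τ), sq_nonneg u]
  have uτ : u * τ ≤ s := by rw [hs]; nlinarith [sq_nonneg (u - τ), sq_nonneg v]
  clear hs
  have t3 : t ^ 3 ≤ 1 := pow_le_one₀ ht.le ht1
  have t31 : t ^ 3 ≤ t := by simpa using pow_le_pow_of_le_one ht.le ht1 (by norm_num : 1 ≤ 3)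
  have t32 : t ^ 3 ≤ t ^ 2 := pow_le_pow_of_le_one ht.le ht1 (by norm_num : 2 ≤ 3)
  have p3 : 0 < t ^ 3 := by positivity
  have s0 : s ≤ s / t ^ 3 := le_div_self hs0 p3 t3
  have s1 : s / t ≤ s / t ^ 3 := div_le_div_of_nonneg_left hs0 p3 t31
  have s2 : s / t ^ 2 ≤ s / t ^ 3 := div_le_div_of_nonneg_left hs0 p3 t32
  have v1 : v ≤ t + s / t ^ 3 := (real_lin ht sv).trans (by linarith)
  have τ1 : τ ≤ t + s / t ^ 3 := (real_lin ht ττ).trans (by linarith)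
  have u1 : u / t ≤ t + s / t ^ 3 := by
    have h1 := real_lin (d := t ^ 2) (by positivity) su
    rw [div_le_iff₀ ht]
    refine h1.trans (le_of_eq ?_)
    field_simp
  have b4 : ρ * τ ^ 2 / 2 ≤ s / t ^ 3 := by
    have a1 : ρ ≤ 2 / t := by rw [le_div_iff₀ ht]; linarith
    have a2 : ρ * τ ^ 2 ≤ 2 / t * s := mul_le_mul a1 ττ (sq_nonneg _) (by positivity)
    have a3 : 2 / t * s = 2 * (s / t) := by ring
    linarith
  have b6 : u * τ / t ^ 2 ≤ s / t ^ 3 :=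
    (div_le_div_of_nonneg_right uτ (by positivity)).trans s2
  have b7 : τ ^ 2 / t ≤ s / t ^ 3 := (div_le_div_of_nonneg_right ττ ht.le).trans s1
  have h1 : A * N ≤ (v + K / 2 + ρ / 2 * τ) * (K * t + τ) :=
    mul_le_mul hA hN hN0 (by positivity)
  have h2 : 4 * (N * B) / t ^ 2 ≤ 4 * ((K * t + τ) * (u + K * t ^ 2 + τ * t)) / t ^ 2 :=
    div_le_div_of_nonneg_right (mul_le_mul_of_nonneg_left
      (mul_le_mul hN hB hB0 (by positivity)) (by norm_num)) (by positivity)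
  have h3 := real_aux hK ht ht1 hρ hv hτ (by positivity) v1 τ1 u1 (vτ.trans s0) b4 b6 b7
  have e3 : 25 * K / t ^ 3 * s = 25 * (K * (s / t ^ 3)) := by ring
  rw [e3]
  linarith

lemma Fw_one (x : E) {t : ℝ} (ht : 0 < t) (y : E) :
    Fw (fun _ => 1) x t y = H313.ker (t⁻¹ • (y - x)) := by
  unfold Fw
  rw [mul_one, ker_scale ht.ne']

lemma div_test (x e : E) (t : ℝ) (y : E) (P : Submodule ℝ E) :
    divAlong P (fun z => Fw (fun _ => 1) x t z • e) y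
      = -(4 * max (1 - ‖y - x‖ ^ 2 / t ^ 2) 0 * ⟪y - x, proj P e⟫ / t ^ 2) := by
  have hF := contDiff_Fw (h := fun _ : E => (1 : ℝ)) contDiff_const x t
  rw [divAlong_smul P (hF.differentiable (by norm_num) y) (differentiableAt_const e)]
  have h0 : divAlong P (fun _ : E => e) y = 0 := by
    rw [divAlong_eq, fderiv_fun_const]
    simp [tr]
  rw [h0, H552.inner_proj_left, inner_grad, fderiv_Fw contDiff_const]
  unfold psi'
  simp only [fderiv_fun_const, Pi.zero_apply, zero_apply]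
  ring

/-- the kernel inequality for a displacement `η e + ζ` -/
lemma ker_shift {x x' e y : E} {t η : ℝ} (hK : 1 ≤ K) (ht : 0 < t) (ht1 : t ≤ 1)
    (hη : η = t ^ 3) (he1 : ‖e‖ = 1) (hK3 : K * η ≤ 1) (hx' : ‖x - x' - η • e‖ ≤ K * η ^ 2)
    (hy : ‖y - x‖ ≤ t) :
    H313.ker (t⁻¹ • (y - x)) ≤ H313.ker (t⁻¹ • (y - x'))
      + η * (4 * max (1 - ‖y - x‖ ^ 2 / t ^ 2) 0 * ⟪y - x, e⟫ / t ^ 2) + η * (12 * K ^ 2 * t) := by
  have hη0 : 0 < η := by rw [hη]; positivity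
  have hK0 : 0 ≤ K := by linarith
  obtain ⟨ζ, hζ⟩ : ∃ ζ, ζ = x - x' - η • e := ⟨_, rfl⟩
  rw [← hζ] at hx'
  have k1 := ker_semiconvex (t⁻¹ • (y - x)) (t⁻¹ • (η • e + ζ))
  have e1 : t⁻¹ • (y - x) + t⁻¹ • (η • e + ζ) = t⁻¹ • (y - x') := by
    rw [← smul_add, hζ]; congr 1; abel
  have e2 : ‖t⁻¹ • (y - x)‖ ^ 2 = ‖y - x‖ ^ 2 / t ^ 2 := by
    rw [norm_smul, mul_pow, norm_inv, Real.norm_of_nonneg ht.le]; field_simp
  have e3 : ⟪t⁻¹ • (y - x), t⁻¹ • (η • e + ζ)⟫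
      = (η * ⟪y - x, e⟫ + ⟪y - x, ζ⟫) / t ^ 2 := by
    rw [real_inner_smul_left, real_inner_smul_right, inner_add_right, real_inner_smul_right]
    field_simp
  have hζη : ‖ζ‖ ≤ η := by
    refine hx'.trans ?_
    calc K * η ^ 2 = K * η * η := by ring
      _ ≤ 1 * η := mul_le_mul_of_nonneg_right hK3 hη0.le
      _ = η := one_mul η
  have e4 : ‖t⁻¹ • (η • e + ζ)‖ ^ 2 ≤ 4 * (η * t) := by
    have a1 : ‖η • e + ζ‖ ≤ 2 * η := by
      refine (norm_add_le _ _).trans ?_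
      rw [norm_smul, he1, Real.norm_of_nonneg hη0.le]; linarith
    rw [norm_smul, mul_pow, norm_inv, Real.norm_of_nonneg ht.le]
    calc t⁻¹ ^ 2 * ‖η • e + ζ‖ ^ 2 ≤ t⁻¹ ^ 2 * (2 * η) ^ 2 := by gcongr
      _ = 4 * (η * t) := by rw [hη]; field_simp; ring
  rw [e1, e2, e3] at k1
  have hp0 : 0 ≤ max (1 - ‖y - x‖ ^ 2 / t ^ 2) 0 := le_max_right _ _
  have hp1 : max (1 - ‖y - x‖ ^ 2 / t ^ 2) 0 ≤ 1 := by
    have : 0 ≤ ‖y - x‖ ^ 2 / t ^ 2 := by positivity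
    exact max_le (by linarith) zero_le_one
  generalize max (1 - ‖y - x‖ ^ 2 / t ^ 2) 0 = p at k1 hp0 hp1 ⊢
  have a4 : 0 ≤ K * (η * t) := by positivity
  have e5 : p * (⟪y - x, ζ⟫ / t ^ 2) ≤ K * (η * t) := by
    have a1 : ⟪y - x, ζ⟫ ≤ t * (K * η ^ 2) :=
      (real_inner_le_norm _ _).trans (mul_le_mul hy hx' (norm_nonneg _) ht.le)
    have a2 : ⟪y - x, ζ⟫ / t ^ 2 ≤ K * (η * t) * t := by
      rw [div_le_iff₀ (by positivity)]
      refine a1.trans (le_of_eq ?_)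
      rw [hη]; ring
    have a3 : K * (η * t) * t ≤ K * (η * t) := mul_le_of_le_one_right a4 ht1
    exact (mul_le_mul_of_nonneg_left (a2.trans a3) hp0).trans (mul_le_of_le_one_left a4 hp1)
  have e7 : 4 * p * ((η * ⟪y - x, e⟫ + ⟪y - x, ζ⟫) / t ^ 2)
      = η * (4 * p * ⟪y - x, e⟫ / t ^ 2) + 4 * (p * (⟪y - x, ζ⟫ / t ^ 2)) := by ring
  have h0 : 0 ≤ η * t := by positivity
  have m2 : K * (η * t) ≤ K ^ 2 * (η * t) := mul_le_mul_of_nonneg_right (by nlinarith) h0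
  have m3 : η * t ≤ K ^ 2 * (η * t) := le_mul_of_one_le_left h0 (one_le_pow₀ hK)
  have e8 : η * (12 * K ^ 2 * t) = 12 * (K ^ 2 * (η * t)) := by ring
  rw [e7] at k1
  rw [e8]
  linarith

/-- the normal components -/
lemma normal_le (hE : Module.finrank ℝ E = m + 1) (hW : TubeG W c K) {x e y : E} (hx : W x = 0)
    {R t : ℝ} (ht : 0 < t) (hc : t < c) (hxR : ‖x‖ ≤ R + 1) (htR : t * (R + 2) ≤ 2)
    (he1 : ‖e‖ = 1) (he : ⟪grad W x, e⟫ = 0) (hdim : Module.finrank ℝ (T y) = m)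
    (hnor : H y ∈ (T y)ᗮ) (hy : y ∈ closedBall x t) {p k : ℝ} (hp0 : 0 ≤ p) (hp1 : p ≤ 1)
    (hk0 : 0 ≤ k) (hk1 : k ≤ 1) :
    4 * p * ⟪y - x, e⟫ / t ^ 2 - 4 * p * ⟪y - x, proj (T y) e⟫ / t ^ 2 + ⟪k • e, H y⟫
      ≤ 19 * K ^ 2 * t + 25 * K / t ^ 3 * sd T H W y := by
  have hK1 := hW.K1
  have hK := hW.K0
  have hc4 := hW.c_le
  have ht1 : t ≤ 1 := by linarith
  obtain ⟨n, hn1, hnT, hnφ, hn⟩ := H63.exists_normal hE hdim
  have hyt := mem_tube hW hx hc hy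
  have hyn := norm_le_of_mem hy
  have hy' : ‖y - x‖ ≤ t := by rwa [mem_closedBall, dist_eq_norm] at hy
  have e6 : ⟪y - x, e⟫ = ⟪y - x, proj (T y) e⟫ + ⟪n, e⟫ * ⟪n, y - x⟫ := by
    rw [hn, inner_sub_right (y - x) e, real_inner_smul_right, real_inner_comm n]; ring
  have hg1 := hW.eik y hyt
  have n1 : |⟪n, e⟫| ≤ K * t + tau T W y := by
    have a1 := abs_inner_normal_le hn1 hn hg1 e
    have a2 : ⟪grad W y, e⟫ = ⟪grad W y - grad W x, e⟫ := by rw [inner_sub_left, he, sub_zero]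
    have a3 := abs_real_inner_le_norm (grad W y - grad W x) e
    have a4 := hW.grad_lip x y
    have a5 : K * ‖y - x‖ ≤ K * t := by gcongr
    rw [he1, mul_one] at a1 a3
    unfold tau
    rw [a2] at a1
    linarith
  have n2 : |⟪n, y - x⟫| ≤ |W y| + K * t ^ 2 + tau T W y * t := by
    have a1 := abs_inner_normal_le hn1 hn hg1 (y - x)
    have a2 := hW.taylor y x
    rw [hx, norm_sub_rev, ← neg_sub y x, inner_neg_right] at a2
    have a3 : K * ‖y - x‖ ^ 2 ≤ K * t ^ 2 := by gcongr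
    have a4 : |⟪grad W y, y - x⟫| ≤ |W y| + K * t ^ 2 := by
      have b1 := abs_sub_abs_le_abs_sub (⟪grad W y, y - x⟫) (W y)
      have b2 : (0 : ℝ) - W y - -⟪grad W y, y - x⟫ = ⟪grad W y, y - x⟫ - W y := by ring
      rw [b2] at a2
      linarith
    have a5 : ‖proj (T y) (grad W y)‖ * ‖y - x‖ ≤ tau T W y * t := by
      unfold tau; gcongr
    linarith
  have n3 : ‖H y‖ ≤ ‖vel T H y‖ + K / 2 + (R + 2) / 2 * tau T W y := by
    have a1 := hW.norm_H_le_tube hE H hdim hyt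
    have a2 := TubeG.tau_nonneg T W y
    have a3 : ‖y‖ / 2 * tau T W y ≤ (R + 2) / 2 * tau T W y := by gcongr; linarith
    linarith
  have n4 : ⟪k • e, H y⟫ ≤ ‖H y‖ * |⟪n, e⟫| := by
    have a1 : ⟪k • e, H y⟫ = k * (⟪n, H y⟫ * ⟪n, e⟫) := by
      rw [real_inner_smul_left]
      conv_lhs => rw [hnφ _ hnor, real_inner_smul_right, real_inner_comm n e]
    have a2 : |⟪n, H y⟫| ≤ ‖H y‖ := by
      have := abs_real_inner_le_norm n (H y)
      rwa [hn1, one_mul] at this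
    have a3 : |⟪n, H y⟫ * ⟪n, e⟫| ≤ ‖H y‖ * |⟪n, e⟫| := by rw [abs_mul]; gcongr
    rw [a1]
    refine (le_abs_self _).trans ?_
    rw [abs_mul, abs_of_nonneg hk0]
    exact (mul_le_of_le_one_left (abs_nonneg _) hk1).trans a3
  have n5 : 4 * p * (⟪n, e⟫ * ⟪n, y - x⟫) / t ^ 2 ≤ 4 * (|⟪n, e⟫| * |⟪n, y - x⟫|) / t ^ 2 := by
    have a1 : p * (⟪n, e⟫ * ⟪n, y - x⟫) ≤ |⟪n, e⟫| * |⟪n, y - x⟫| := by
      rw [← abs_mul]
      refine (le_abs_self _).trans ?_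
      rw [abs_mul, abs_of_nonneg hp0]
      exact mul_le_of_le_one_left (abs_nonneg _) hp1
    rw [mul_assoc]
    gcongr
  have hR0 : 0 ≤ R + 2 := by have := norm_nonneg x; linarith
  have main := real_step (u := |W y|) (s := sd T H W y) hK1 ht ht1 hR0 htR (abs_nonneg _)
    (norm_nonneg (vel T H y)) (TubeG.tau_nonneg T W y) (by unfold sd; rw [sq_abs])
    (norm_nonneg (H y)) n3 (abs_nonneg _) n1 (abs_nonneg _) n2
  have e7 : 4 * p * ⟪y - x, e⟫ / t ^ 2 - 4 * p * ⟪y - x, proj (T y) e⟫ / t ^ 2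
      = 4 * p * (⟪n, e⟫ * ⟪n, y - x⟫) / t ^ 2 := by
    rw [e6]; ring
  rw [e7]
  linarith

/-- one step -/
theorem step_le (hE : Module.finrank ℝ E = m + 1) (hW : TubeG W c K) (hS : Slice m μ T H)
    (hR : Ratio m μ CR) {x x' e : E} (hx : W x = 0) {R t : ℝ} (ht : 0 < t) (hc : t < c)
    (hxR : ‖x‖ ≤ R + 1) (htR : t * (R + 2) ≤ 2) (he1 : ‖e‖ = 1) (he : ⟪grad W x, e⟫ = 0)
    (hK3 : K * t ^ 3 ≤ 1) (hx' : ‖x - x' - t ^ 3 • e‖ ≤ K * (t ^ 3) ^ 2) :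
    th m μ x t ≤ th m μ x' t
      + t ^ 3 * (31 * K ^ 2 * t * CR + 25 * K / t ^ 3 * en μ T H W (R + 3) / t ^ m) := by
  have hprop : ProperSpace E := FiniteDimensional.proper_real E
  have hfin := hS.mc.fin
  have hK1 := hW.K1
  have hK := hW.K0
  have hc4 := hW.c_le
  have ht1 : t ≤ 1 := by linarith
  obtain ⟨η, hη⟩ : ∃ η, η = t ^ 3 := ⟨_, rfl⟩
  have hη0 : 0 < η := by rw [hη]; positivity
  rw [← hη] at hK3 hx'
  obtain ⟨X, hX⟩ : ∃ X : E → E, X = fun z => Fw (fun _ => 1) x t z • e := ⟨_, rfl⟩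
  have hFc := contDiff_Fw (h := fun _ : E => (1 : ℝ)) contDiff_const x t
  have hXC : ContDiff ℝ 1 X := by rw [hX]; exact hFc.smul contDiff_const
  have hXz : ∀ y, y ∉ closedBall x t → X y = 0 := by
    intro y hy
    rw [hX]
    simp only
    rw [Fw_zero ht hy, zero_smul]
  have hXc : HasCompactSupport X := HasCompactSupport.intro (isCompact_closedBall x t) hXz
  have hfv := hS.mc.fv X hXC hXc
  have hout : ∀ y, y ∉ closedBall x t → max (1 - ‖y - x‖ ^ 2 / t ^ 2) 0 = 0 := by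
    intro y hy
    rw [mem_closedBall, not_le, dist_eq_norm] at hy
    refine max_eq_right ?_
    have : 1 ≤ ‖y - x‖ ^ 2 / t ^ 2 := by
      rw [one_le_div (by positivity)]
      gcongr
    linarith
  have hdz : ∀ y, y ∉ closedBall x t → divAlong (T y) X y = 0 := by
    intro y hy
    rw [hX, div_test, hout y hy]
    ring
  obtain ⟨C₁, hC₁⟩ := hXc.exists_bound_of_continuous hXC.continuous
  have hdi : Integrable (fun y => divAlong (T y) X y) μ := by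
    have hc2 : HasCompactSupport (fderiv ℝ X) := hXc.fderiv (𝕜 := ℝ)
    obtain ⟨C₂, hC₂⟩ := hc2.exists_bound_of_continuous (hXC.continuous_fderiv (by norm_num))
    refine hS.integrable_ball (hS.div_meas hXC) hdz (C := Module.finrank ℝ E * |C₂|)
      (Eventually.of_forall fun y => ?_)
    refine (abs_divAlong_le _ _ _).trans ?_
    have h1 := (hC₂ y).trans (le_abs_self _)
    have h2 : (Module.finrank ℝ E : ℝ) * ‖fderiv ℝ X y‖ ≤ Module.finrank ℝ E * |C₂| := by gcongr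
    have h3 : 0 ≤ (Module.finrank ℝ E : ℝ) * |C₂| := by positivity
    nlinarith [sq_nonneg ‖H y‖]
  have hHi : Integrable (fun y => ⟪X y, H y⟫) μ := by
    refine hS.integrable_ball (hXC.continuous.aestronglyMeasurable.inner hS.mc.meas)
      (fun y hy => by rw [hXz y hy, inner_zero_left]) (C := |C₁|)
      (Eventually.of_forall fun y => ?_)
    refine (abs_real_inner_le_norm _ _).trans ?_
    have h1 := (hC₁ y).trans (le_abs_self _)
    have e4 : ‖H y‖ ≤ 1 + ‖H y‖ ^ 2 := by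
      nlinarith [sq_nonneg (‖H y‖ - 1), norm_nonneg (H y)]
    exact mul_le_mul h1 e4 (norm_nonneg _) (abs_nonneg _)
  have i1 : Integrable (fun y => H313.ker (t⁻¹ • (y - x))) μ := integrable_ker_scale x ht
  have i2 : Integrable (fun y => H313.ker (t⁻¹ • (y - x'))) μ := integrable_ker_scale x' ht
  obtain ⟨f, hf⟩ : ∃ f : E → ℝ, f = fun y => H313.ker (t⁻¹ • (y - x)) - H313.ker (t⁻¹ • (y - x'))
    + η * (divAlong (T y) X y + ⟪X y, H y⟫) := ⟨_, rfl⟩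
  have hfi : Integrable f μ := by
    rw [hf]; exact (i1.sub i2).add ((hdi.add hHi).const_mul η)
  have hfint : ∫ y, f y ∂μ = ∫ y, H313.ker (t⁻¹ • (y - x)) ∂μ - ∫ y, H313.ker (t⁻¹ • (y - x')) ∂μ := by
    have j1 : Integrable (fun y => H313.ker (t⁻¹ • (y - x)) - H313.ker (t⁻¹ • (y - x'))) μ := i1.sub i2
    have j2 : Integrable (fun y => η * (divAlong (T y) X y + ⟪X y, H y⟫)) μ :=
      (hdi.add hHi).const_mul η
    rw [hf, integral_add j1 j2, integral_sub i1 i2, integral_const_mul, integral_add hdi hHi, hfv]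
    ring
  have hsplit : ∫ y, f y ∂μ ≤ ∫ y in closedBall x t, f y ∂μ := by
    rw [← integral_add_compl measurableSet_closedBall hfi]
    have : ∫ y in (closedBall x t)ᶜ, f y ∂μ ≤ 0 := by
      refine setIntegral_nonpos measurableSet_closedBall.compl fun y hy => ?_
      rw [hf]
      simp only
      rw [hdz y hy, hXz y hy, inner_zero_left, ker_scale_zero' ht hy]
      have := kern_nonneg (t⁻¹ • (y - x'))
      linarith
    linarith
  have hball := ball_le hW hS hR ht ht1 (R := R + 3) (x := x) (by linarith) hfi.integrableOn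
    (a := η * (31 * K ^ 2 * t)) (b := η * (25 * K / t ^ 3)) (by positivity) (by positivity) ?_
  · have hp : 0 < t ^ m := by positivity
    unfold th
    rw [← sub_le_iff_le_add', ← sub_div, div_le_iff₀ hp, ← hfint]
    refine hsplit.trans (hball.trans (le_of_eq ?_))
    rw [hη]
    field_simp
  filter_upwards [hS.mc.dim, hS.mc.normal] with y hdim hnor hy
  have hy' : ‖y - x‖ ≤ t := by rwa [mem_closedBall, dist_eq_norm] at hy
  have k1 := ker_shift hK1 ht ht1 hη he1 hK3 hx' hy'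
  have hp0 : 0 ≤ max (1 - ‖y - x‖ ^ 2 / t ^ 2) 0 := le_max_right _ _
  have hp1 : max (1 - ‖y - x‖ ^ 2 / t ^ 2) 0 ≤ 1 := by
    have : 0 ≤ ‖y - x‖ ^ 2 / t ^ 2 := by positivity
    exact max_le (by linarith) zero_le_one
  have k2 := normal_le hE hW hx ht hc hxR htR he1 he hdim hnor hy hp0 hp1
    (kern_nonneg (t⁻¹ • (y - x))) (kern_le_one (t⁻¹ • (y - x)))
  have k3 := mul_le_mul_of_nonneg_left k2 hη0.le
  have hdiv : divAlong (T y) X y
      = -(4 * max (1 - ‖y - x‖ ^ 2 / t ^ 2) 0 * ⟪y - x, proj (T y) e⟫ / t ^ 2) := by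
    rw [hX, div_test]
  have hXy : X y = H313.ker (t⁻¹ • (y - x)) • e := by
    rw [hX]; simp only; rw [Fw_one x ht]
  rw [hf]
  simp only
  rw [hdiv, hXy]
  linarith

end Vale.Agent.P218PR
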